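import Vale.Agent.P022.H542.L3.Geo

/-! # P022-L3, chapter G, row [FD]: the Riemann-Roch type spaces are finite dimensional -/

noncomputable section

open HahnSeries
open scoped IntermediateField

namespace Vale.Agent.P022.H542.L3

namespace FD

/-- the series without polar part -/
def O : Subring LS := (HahnSeries.ofPowerSeries ℤ ℂ).range

theorem order_nonneg_of_mem {z : LS} (h : z ∈ O) : 0 ≤ z.order := by
  obtain ⟨y, rfl⟩ := h
  by_contra hlt
  push Not at hlt
  have h0 : HahnSeries.ofPowerSeries ℤ ℂ y ≠ 0 := by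
    intro h0
    rw [h0, HahnSeries.order_zero] at hlt
    exact lt_irrefl _ hlt
  have h1 : (HahnSeries.ofPowerSeries ℤ ℂ y).coeff (HahnSeries.ofPowerSeries ℤ ℂ y).order = 0 := by
    have := PowerSeries.coeff_coe (R := ℂ) (f := y) (HahnSeries.ofPowerSeries ℤ ℂ y).order
    rw [if_pos hlt] at this
    exact this
  exact h0 (HahnSeries.coeff_order_eq_zero.1 h1)

theorem mem_of_order_nonneg {z : LS} (h : 0 ≤ z.order) : z ∈ O := by
  refine ⟨PowerSeries.mk fun n => z.coeff n, ?_⟩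
  ext n
  have h1 := PowerSeries.coeff_coe (R := ℂ) (f := PowerSeries.mk fun n => z.coeff n) n
  change (HahnSeries.ofPowerSeries ℤ ℂ _).coeff n = _ at h1
  rw [h1]
  split_ifs with hn
  · exact (HahnSeries.coeff_eq_zero_of_lt_order (lt_of_lt_of_le hn h)).symm
  · rw [PowerSeries.coeff_mk, Int.natAbs_of_nonneg (not_lt.1 hn)]

theorem mem_O {z : LS} : z ∈ O ↔ 0 ≤ z.order := ⟨order_nonneg_of_mem, mem_of_order_nonneg⟩

/-- `O` is integrally closed -/
theorem mem_of_integral {R : Type} [CommRing R] (φ : R →+* LS) (hφ : ∀ r, φ r ∈ O) {z : LS}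
    (hz : φ.IsIntegralElem z) : z ∈ O := by
  obtain ⟨P, hP, hPz⟩ := hz
  -- lift the coefficients
  have h1 : IsIntegral (PowerSeries ℂ) z := by
    have hlift : ∀ r, ∃ y : PowerSeries ℂ, HahnSeries.ofPowerSeries ℤ ℂ y = φ r := hφ
    have hmem : P.map φ ∈ Polynomial.lifts (algebraMap (PowerSeries ℂ) LS) := by
      rw [Polynomial.lifts_iff_coeff_lifts]
      intro n
      rw [Polynomial.coeff_map]
      exact hlift _
    obtain ⟨Q, hQ1, -, hQ3⟩ := Polynomial.lifts_and_natDegree_eq_and_monic hmem (hP.map φ)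
    refine ⟨Q, hQ3, ?_⟩
    rw [← Polynomial.eval_map, hQ1, Polynomial.eval_map]
    exact hPz
  obtain ⟨y, hy⟩ := IsIntegrallyClosed.isIntegral_iff.1 h1
  exact ⟨y, hy⟩

theorem single_mem (e : ℕ) : (single (e : ℤ) (1 : ℂ) : LS) ∈ O := by
  rw [mem_O, HahnSeries.order_single one_ne_zero]
  exact Int.natCast_nonneg e

theorem C_mem (a : ℂ) : (C a : LS) ∈ O := by
  rw [mem_O, HahnSeries.order_C]

theorem algMap (a : ℂ) : algebraMap ℂ LS a = C a := by
  rw [HahnSeries.algebraMap_apply']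
  exact HahnSeries.ofPowerSeries_C a

theorem add_order {z w : LS} (hz : 0 ≤ z.order) (hw : 0 ≤ w.order) : 0 ≤ (z + w).order :=
  mem_O.1 (O.add_mem (mem_O.2 hz) (mem_O.2 hw))

theorem order_C_mul {c : ℂ} (hc : c ≠ 0) (z : LS) : (C c * z).order = z.order := by
  by_cases hz : z = 0
  · rw [hz, mul_zero]
  · rw [HahnSeries.order_mul (by simpa using hc) hz, HahnSeries.order_C, zero_add]

section

variable {K : Type} [Field K] [Algebra ℂ K]

/-- polynomials in `u` -/
theorem map_aeval (θ : K →ₐ[ℂ] LS) (u : K) (q : Polynomial ℂ) :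
    θ (Polynomial.aeval u q) = Polynomial.aeval (θ u) q := (Polynomial.aeval_algHom_apply θ u q).symm

theorem aeval_mem {z : LS} (hz : z ∈ O) (q : Polynomial ℂ) : Polynomial.aeval z q ∈ O := by
  rw [Polynomial.aeval_eq_sum_range]
  refine sum_mem fun i _ => ?_
  rw [Algebra.smul_def, algMap]
  exact O.mul_mem (C_mem _) (O.pow_mem hz i)

/-- the order of `q(a + t^e)` -/
theorem order_aeval (q : Polynomial ℂ) (hq : q ≠ 0) (a : ℂ) (e : ℕ) (he : 1 ≤ e) :
    (Polynomial.aeval (C a + single (e : ℤ) 1 : LS) q).order = (e : ℤ) * q.rootMultiplicity a := by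
  obtain ⟨q', hq', hnd⟩ := Polynomial.exists_eq_pow_rootMultiplicity_mul_and_not_dvd q hq a
  have hev : q'.eval a ≠ 0 := fun h => hnd (Polynomial.dvd_iff_isRoot.2 h)
  set z : LS := C a + single (e : ℤ) 1 with hz
  have hzO : z ∈ O := O.add_mem (C_mem a) (single_mem e)
  -- the constant coefficient of `q'(z)`
  have h0 : (Polynomial.aeval z q').coeff 0 = q'.eval a := by
    obtain ⟨r, hr⟩ : ∃ r, q' = (Polynomial.X - Polynomial.C a) * r + Polynomial.C (q'.eval a) := by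
      obtain ⟨r, hr⟩ := Polynomial.X_sub_C_dvd_sub_C_eval (p := q') (a := a)
      exact ⟨r, by rw [← hr]; ring⟩
    have h1 : Polynomial.aeval z q' = single (e : ℤ) 1 * Polynomial.aeval z r + C (q'.eval a) := by
      conv_lhs => rw [hr]
      rw [map_add, map_mul, map_sub, Polynomial.aeval_X, Polynomial.aeval_C, Polynomial.aeval_C,
        algMap, algMap]
      congr 2
      rw [hz]
      exact add_sub_cancel_left _ _
    have h2 : (single (e : ℤ) 1 * Polynomial.aeval z r : LS).coeff 0 = 0 := by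
      by_cases hr0 : Polynomial.aeval z r = 0
      · rw [hr0, mul_zero, HahnSeries.coeff_zero]
      · apply HahnSeries.coeff_eq_zero_of_lt_order
        rw [HahnSeries.order_mul (HahnSeries.single_ne_zero one_ne_zero) hr0,
          HahnSeries.order_single one_ne_zero]
        have := order_nonneg_of_mem (aeval_mem hzO r)
        omega
    rw [h1, HahnSeries.coeff_add, h2, zero_add, HahnSeries.C_apply, HahnSeries.coeff_single_same]
  have hne : Polynomial.aeval z q' ≠ 0 := by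
    intro h
    rw [h, HahnSeries.coeff_zero] at h0
    exact hev h0.symm
  have hord : (Polynomial.aeval z q').order = 0 := by
    apply le_antisymm
    · apply HahnSeries.order_le_of_coeff_ne_zero
      rw [h0]
      exact hev
    · exact order_nonneg_of_mem (aeval_mem hzO q')
  have h3 : Polynomial.aeval z q = single (e : ℤ) 1 ^ q.rootMultiplicity a *
      Polynomial.aeval z q' := by
    conv_lhs => rw [hq']
    rw [map_mul, map_pow, map_sub, Polynomial.aeval_X, Polynomial.aeval_C, algMap]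
    congr 2
    rw [hz]
    exact add_sub_cancel_left _ _
  rw [h3, HahnSeries.order_mul (pow_ne_zero _ (HahnSeries.single_ne_zero one_ne_zero)) hne,
    HahnSeries.order_pow, HahnSeries.order_single one_ne_zero, hord, add_zero, nsmul_eq_mul,
    mul_comm]

/-- every element has a polynomial multiple which is integral over the polynomials in `u` -/
theorem exists_int (u : K) (hu : Transcendental ℂ u) (halg : ∀ y : K, IsAlgebraic ℂ⟮u⟯ y) (y : K) :
    ∃ q : Polynomial ℂ, q ≠ 0 ∧ (Polynomial.aeval u : Polynomial ℂ →ₐ[ℂ] K).toRingHom.IsIntegralElem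
      (Polynomial.aeval u q * y) := by
  let _ : Algebra (Polynomial ℂ) K := (Polynomial.aeval u : Polynomial ℂ →ₐ[ℂ] K).toRingHom.toAlgebra
  have hinj : Function.Injective (algebraMap (Polynomial ℂ) K) :=
    transcendental_iff_injective.1 hu
  -- the elements of `ℂ(u)` are algebraic over `ℂ[u]`
  let _ : Algebra (Polynomial ℂ) ℂ⟮u⟯ :=
    (Polynomial.aeval (IntermediateField.AdjoinSimple.gen ℂ u) :
      Polynomial ℂ →ₐ[ℂ] ℂ⟮u⟯).toRingHom.toAlgebra
  have : IsScalarTower (Polynomial ℂ) ℂ⟮u⟯ K := by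
    refine IsScalarTower.of_algebraMap_eq fun q => ?_
    change Polynomial.aeval u q = algebraMap ℂ⟮u⟯ K (Polynomial.aeval _ q)
    rw [← Polynomial.aeval_algebraMap_apply]
    rfl
  have hF : Algebra.IsAlgebraic (Polynomial ℂ) ℂ⟮u⟯ := by
    refine ⟨fun x => ?_⟩
    have hx := IntermediateField.mem_adjoin_simple_iff ℂ (α := u) (x : K)
    obtain ⟨r, s, hrs⟩ := hx.1 x.2
    have h1 : IsAlgebraic (Polynomial ℂ) (x : K) := by
      rw [hrs, div_eq_mul_inv]
      exact (isAlgebraic_algebraMap (A := K) r).mul (isAlgebraic_algebraMap (A := K) s).inv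
    exact (isAlgebraic_algebraMap_iff (algebraMap ℂ⟮u⟯ K).injective).1 h1
  have hK : Algebra.IsAlgebraic ℂ⟮u⟯ K := ⟨halg⟩
  have hA : Algebra.IsAlgebraic (Polynomial ℂ) K := Algebra.IsAlgebraic.trans (Polynomial ℂ) ℂ⟮u⟯ K
  obtain ⟨q, hq, hint⟩ := (hA.isAlgebraic y).exists_integral_multiple
  refine ⟨q, hq, ?_⟩
  rw [Algebra.smul_def] at hint
  exact hint

/-- **the lower bound of the orders** of `y` in terms of the order of `u - a` -/
theorem lower (u : K) (hu : Transcendental ℂ u) (halg : ∀ y : K, IsAlgebraic ℂ⟮u⟯ y) (y : K) :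
    ∃ q : Polynomial ℂ, q ≠ 0 ∧ ∀ (a : ℂ) (e : ℕ) (θ : K →ₐ[ℂ] LS), 1 ≤ e →
      θ u = C a + single (e : ℤ) 1 → -((e : ℤ) * q.rootMultiplicity a) ≤ (θ y).order := by
  obtain ⟨q, hq, P, hP, hPy⟩ := exists_int u hu halg y
  refine ⟨q, hq, fun a e θ he hθ => ?_⟩
  have h1 : θ (Polynomial.aeval u q * y) ∈ O := by
    refine mem_of_integral (θ.toRingHom.comp
      (Polynomial.aeval u : Polynomial ℂ →ₐ[ℂ] K).toRingHom) (fun r => ?_) ⟨P, hP, ?_⟩
    · change θ (Polynomial.aeval u r) ∈ O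
      rw [map_aeval, hθ]
      exact aeval_mem (O.add_mem (C_mem a) (single_mem e)) r
    · have h2 := congrArg θ hPy
      rw [map_zero] at h2
      rw [← h2]
      exact (Polynomial.hom_eval₂ P _ θ.toRingHom _).symm
  have h2 := order_nonneg_of_mem h1
  by_cases hy : y = 0
  · rw [hy, map_zero, HahnSeries.order_zero]
    have : (0 : ℤ) ≤ (e : ℤ) * q.rootMultiplicity a := by positivity
    omega
  · have hq0 : θ (Polynomial.aeval u q) ≠ 0 := by
      rw [map_ne_zero]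
      intro h
      exact hq (transcendental_iff.1 hu q h)
    have hy0 : θ y ≠ 0 := (map_ne_zero θ).2 hy
    rw [map_mul, HahnSeries.order_mul hq0 hy0, map_aeval, hθ, order_aeval q hq a e he] at h2
    omega

end

/-- order and addition, in the form used for `MM` -/
theorem le_add {N : ℕ} {z w : LS} (h : z + w ≠ 0) {c d : ℤ} (hz : c ≤ (N : ℤ) * z.order + d)
    (hw : c ≤ (N : ℤ) * w.order + d) : c ≤ (N : ℤ) * (z + w).order + d := by
  have h1 := HahnSeries.min_order_le_order_add h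
  have hN : (0 : ℤ) ≤ N := Int.natCast_nonneg N
  rcases min_le_iff.1 h1 with h2 | h2
  · have := mul_le_mul_of_nonneg_left h2 hN
    omega
  · have := mul_le_mul_of_nonneg_left h2 hN
    omega

/-- the order of a polynomial at infinity -/
theorem order_aeval_inf (P : Polynomial ℂ) (hP : P ≠ 0) (e : ℕ) (he : 1 ≤ e) :
    (Polynomial.aeval (single (-(e : ℤ)) 1 : LS) P).order = -((e : ℤ) * P.natDegree) := by
  have hx : (single (-(e : ℤ)) (1 : ℂ) : LS) ≠ 0 := HahnSeries.single_ne_zero one_ne_zero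
  have hinv : (single (-(e : ℤ)) (1 : ℂ) : LS)⁻¹ = C 0 + single (e : ℤ) 1 := by
    rw [HahnSeries.inv_single, neg_neg, inv_one, map_zero, zero_add]
  let _ := invertibleOfNonzero hx
  have h1 := Polynomial.eval₂_reverse_mul_pow (algebraMap ℂ LS) (single (-(e : ℤ)) (1 : ℂ) : LS) P
  rw [invOf_eq_inv, hinv] at h1
  have hrev : P.reverse ≠ 0 := by
    intro h
    exact hP (Polynomial.reverse_eq_zero.1 h)
  have hroot : P.reverse.rootMultiplicity 0 = 0 := by
    apply Polynomial.rootMultiplicity_eq_zero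
    rw [Polynomial.IsRoot.def, ← Polynomial.coeff_zero_eq_eval_zero, Polynomial.coeff_zero_reverse]
    exact Polynomial.leadingCoeff_ne_zero.2 hP
  have h2 := order_aeval P.reverse hrev 0 e he
  rw [hroot, Nat.cast_zero, mul_zero] at h2
  have hne : Polynomial.aeval (C 0 + single (e : ℤ) 1 : LS) P.reverse ≠ 0 := by
    intro h
    have h3 := h1
    change Polynomial.aeval (C 0 + single (e : ℤ) 1 : LS) P.reverse * _ = Polynomial.aeval _ P
      at h3
    rw [h, zero_mul] at h3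
    -- `P(t^-e) ≠ 0`
    have h4 : Transcendental ℂ (single (-(e : ℤ)) 1 : LS) := by
      intro halg
      have hd := IsAlgClosed.degree_eq_one_of_irreducible ℂ (minpoly.irreducible halg.isIntegral)
      obtain ⟨c, hc⟩ := minpoly.mem_range_of_degree_eq_one ℂ _ hd
      rw [algMap] at hc
      have h5 := congrArg (fun z : LS => z.coeff (-(e : ℤ))) hc
      simp only [HahnSeries.C_apply, HahnSeries.coeff_single_same] at h5
      rw [HahnSeries.coeff_single_of_ne (by omega)] at h5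
      exact zero_ne_one h5
    exact hP (transcendental_iff.1 h4 P h3.symm)
  have h3 : Polynomial.aeval (single (-(e : ℤ)) 1 : LS) P =
      Polynomial.aeval (C 0 + single (e : ℤ) 1 : LS) P.reverse *
        (single (-(e : ℤ)) (1 : ℂ) : LS) ^ P.natDegree := h1.symm
  rw [h3, HahnSeries.order_mul hne (pow_ne_zero _ hx), h2, HahnSeries.order_pow,
    HahnSeries.order_single one_ne_zero, zero_add, nsmul_eq_mul]
  ring

end FD

namespace Geo

open FD

variable {B : ℕ} (G : Geo B)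

/-- the expansions at the cusps -/
def IsCusp (θ : G.K →ₐ[ℂ] LS) (e : ℕ) : Prop :=
  1 ≤ e ∧ ((∃ s ∈ G.S, θ G.p = C (s : ℂ) + single (e : ℤ) 1) ∨ θ G.p = single (-(e : ℤ)) 1)

/-- existence of the cusps (row [CUSP]) -/
def CuspEx : Prop :=
  (∀ s ∈ G.S, ∃ (θ : G.K →ₐ[ℂ] LS) (e : ℕ), 1 ≤ e ∧ θ G.p = C (s : ℂ) + single (e : ℤ) 1) ∧
    ∃ (θ : G.K →ₐ[ℂ] LS) (e : ℕ), 1 ≤ e ∧ θ G.p = single (-(e : ℤ)) 1

theorem trans_p : Transcendental ℂ G.p := by
  intro h
  obtain ⟨n, hn, -, -, hne⟩ := G.lead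
  have hd := IsAlgClosed.degree_eq_one_of_irreducible ℂ (minpoly.irreducible h.isIntegral)
  obtain ⟨c, hc⟩ := minpoly.mem_range_of_degree_eq_one ℂ _ hd
  apply hne
  rw [← hc, AlgHom.commutes, algMap, HahnSeries.C_apply, HahnSeries.coeff_single_of_ne hn]

theorem alg_p (y : G.K) : IsAlgebraic ℂ⟮G.p⟯ y := by
  have := G.fin
  exact Algebra.IsAlgebraic.isAlgebraic y

theorem p_ne_zero : G.p ≠ 0 := fun h => G.trans_p (h ▸ isAlgebraic_zero)

theorem trans_inv : Transcendental ℂ G.p⁻¹ := fun h => G.trans_p (by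
  have := h.inv
  rwa [inv_inv] at this)

theorem alg_inv (y : G.K) : IsAlgebraic ℂ⟮G.p⁻¹⟯ y := by
  have h : ℂ⟮G.p⁻¹⟯ = ℂ⟮G.p⟯ := by
    apply le_antisymm
    · rw [IntermediateField.adjoin_simple_le_iff]
      exact inv_mem (IntermediateField.mem_adjoin_simple_self ℂ G.p)
    · rw [IntermediateField.adjoin_simple_le_iff]
      have := inv_mem (IntermediateField.mem_adjoin_simple_self ℂ G.p⁻¹)
      rwa [inv_inv] at this
  rw [h]
  exact G.alg_p y

/-- lower bounds of the orders at all points -/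
theorem lowerAt (y : G.K) : ∃ (q : Polynomial ℂ) (D : ℕ), q ≠ 0 ∧
    (∀ (a : ℂ) (e : ℕ) (θ : G.K →ₐ[ℂ] LS), 1 ≤ e → θ G.p = C a + single (e : ℤ) 1 →
      -((e : ℤ) * q.rootMultiplicity a) ≤ (θ y).order) ∧
    ∀ (e : ℕ) (θ : G.K →ₐ[ℂ] LS), 1 ≤ e → θ G.p = single (-(e : ℤ)) 1 →
      -((e : ℤ) * D) ≤ (θ y).order := by
  obtain ⟨q, hq, h1⟩ := lower G.p G.trans_p G.alg_p y
  obtain ⟨q', hq', h2⟩ := lower G.p⁻¹ G.trans_inv G.alg_inv y
  refine ⟨q, q'.rootMultiplicity 0, hq, h1, fun e θ he hθ => h2 0 e θ he ?_⟩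
  rw [map_inv₀, hθ, HahnSeries.inv_single, neg_neg, inv_one, map_zero, zero_add]

/-- the Riemann-Roch type space -/
def MM (N : ℕ) (f0 : G.Kˣ) (m : ℕ) : Submodule ℂ G.K where
  carrier := {x | x = 0 ∨
    ((∀ a, G.Aff a → ∀ θ ∈ G.Pt a, 0 ≤ (N : ℤ) * (θ x).order + (θ (f0 : G.K)).order) ∧
      ∀ θ e, G.IsCusp θ e → -((m : ℤ) * e) ≤ (N : ℤ) * (θ x).order + (θ (f0 : G.K)).order)}
  zero_mem' := Or.inl rfl
  add_mem' := by
    intro x y hx hy
    by_cases hxy : x + y = 0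
    · exact Or.inl hxy
    rcases hx with hx | ⟨hx1, hx2⟩
    · rw [hx, zero_add]
      exact hy
    rcases hy with hy | ⟨hy1, hy2⟩
    · rw [hy, add_zero]
      exact Or.inr ⟨hx1, hx2⟩
    refine Or.inr ⟨fun a ha θ hθ => ?_, fun θ e he => ?_⟩
    · have hne : θ x + θ y ≠ 0 := by
        rw [← map_add]
        exact (map_ne_zero θ).2 hxy
      rw [map_add]
      exact le_add hne (hx1 a ha θ hθ) (hy1 a ha θ hθ)
    · have hne : θ x + θ y ≠ 0 := by
        rw [← map_add]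
        exact (map_ne_zero θ).2 hxy
      rw [map_add]
      exact le_add hne (hx2 θ e he) (hy2 θ e he)
  smul_mem' := by
    intro c x hx
    by_cases hc : c = 0
    · exact Or.inl (by rw [hc, zero_smul])
    rcases hx with hx | ⟨hx1, hx2⟩
    · exact Or.inl (by rw [hx, smul_zero])
    have h : ∀ θ : G.K →ₐ[ℂ] LS, (θ (c • x)).order = (θ x).order := by
      intro θ
      rw [Algebra.smul_def, map_mul, AlgHom.commutes, algMap, order_C_mul hc]
    refine Or.inr ⟨fun a ha θ hθ => ?_, fun θ e he => ?_⟩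
    · rw [h]
      exact hx1 a ha θ hθ
    · rw [h]
      exact hx2 θ e he

theorem mem_MM {N : ℕ} {f0 : G.Kˣ} {m : ℕ} {x : G.K} : x ∈ G.MM N f0 m ↔ x = 0 ∨
    ((∀ a, G.Aff a → ∀ θ ∈ G.Pt a, 0 ≤ (N : ℤ) * (θ x).order + (θ (f0 : G.K)).order) ∧
      ∀ θ e, G.IsCusp θ e → -((m : ℤ) * e) ≤ (N : ℤ) * (θ x).order + (θ (f0 : G.K)).order) :=
  Iff.rfl

/-- the spaces are not zero for large `m` -/
theorem exists_MM_ne (N : ℕ) (hN : 0 < N) (f0 : G.Kˣ) :
    ∃ m0 : ℕ, ∀ m, m0 ≤ m → ∃ x ∈ G.MM N f0 m, x ≠ 0 := by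
  obtain ⟨q, D, hq, h1, h2⟩ := G.lowerAt (f0 : G.K)
  obtain ⟨q', D', -, -, h2'⟩ := G.lowerAt (Polynomial.aeval G.p q)
  have hx : Polynomial.aeval G.p q ≠ 0 := fun h => hq (transcendental_iff.1 G.trans_p q h)
  refine ⟨N * D' + D, fun m hm => ⟨Polynomial.aeval G.p q, Or.inr ⟨fun a ha θ hθ => ?_,
    fun θ e he => ?_⟩, hx⟩⟩
  · have hθ' : θ G.p = C a + single ((1 : ℕ) : ℤ) 1 := by
      rw [Nat.cast_one]
      exact hθ
    have h3 := h1 a 1 θ le_rfl hθ'
    rw [map_aeval, hθ', order_aeval q hq a 1 le_rfl]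
    have h4 : (1 : ℤ) ≤ N := by exact_mod_cast hN
    have h5 : (0 : ℤ) ≤ (((1 : ℕ) : ℤ) * q.rootMultiplicity a) := by positivity
    nlinarith
  · obtain ⟨he1, ⟨s, hs, hθ⟩ | hθ⟩ := he
    · have h3 := h1 s e θ he1 hθ
      rw [map_aeval, hθ, order_aeval q hq s e he1]
      have h4 : (1 : ℤ) ≤ N := by exact_mod_cast hN
      have h5 : (0 : ℤ) ≤ ((e : ℤ) * q.rootMultiplicity (s : ℂ)) := by positivity
      have h6 : (0 : ℤ) ≤ (m : ℤ) * e := by positivity
      nlinarith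
    · have h3 := h2 e θ he1 hθ
      have h4 := h2' e θ he1 hθ
      have h5 : (0 : ℤ) ≤ N := by positivity
      have h6 := mul_le_mul_of_nonneg_left h4 h5
      have h7 : ((N * D' + D : ℕ) : ℤ) * e ≤ (m : ℤ) * e :=
        mul_le_mul_of_nonneg_right (by exact_mod_cast hm) (by positivity)
      push_cast at h7
      nlinarith

/-- an element of `ℂ(p)` without affine and finite cuspidal poles is a polynomial in `p` -/
theorem poly_of_orders (T : G.K) (hT : T ∈ ℂ⟮G.p⟯)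
    (hfin : ∀ a : ℂ, ∃ (θ : G.K →ₐ[ℂ] LS) (e : ℕ), 1 ≤ e ∧ θ G.p = C a + single (e : ℤ) 1 ∧
      0 ≤ (θ T).order) (D : ℕ)
    (hinf : ∃ (θ : G.K →ₐ[ℂ] LS) (e : ℕ), 1 ≤ e ∧ θ G.p = single (-(e : ℤ)) 1 ∧
      -((e : ℤ) * D) ≤ (θ T).order) :
    ∃ P : Polynomial ℂ, P.natDegree ≤ D ∧ T = Polynomial.aeval G.p P := by
  have hinj : ∀ q : Polynomial ℂ, q ≠ 0 → Polynomial.aeval G.p q ≠ 0 := fun q hq h =>
    hq (transcendental_iff.1 G.trans_p q h)
  have key : ∀ (n : ℕ) (r s : Polynomial ℂ), s ≠ 0 → s.natDegree = n →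
      T * Polynomial.aeval G.p s = Polynomial.aeval G.p r →
      ∃ P : Polynomial ℂ, T = Polynomial.aeval G.p P := by
    intro n
    induction n with
    | zero =>
      intro r s hs hn h
      obtain ⟨c, rfl⟩ := Polynomial.natDegree_eq_zero.1 hn
      have hc : c ≠ 0 := fun h0 => hs (by rw [h0, map_zero])
      refine ⟨Polynomial.C c⁻¹ * r, ?_⟩
      rw [map_mul, ← h, Polynomial.aeval_C, Polynomial.aeval_C, mul_left_comm, ← map_mul,
        inv_mul_cancel₀ hc, map_one, mul_one]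
    | succ n ih =>
      intro r s hs hn h
      by_cases hT0 : T = 0
      · exact ⟨0, by rw [hT0, map_zero]⟩
      obtain ⟨a, ha⟩ := IsAlgClosed.exists_root s (by
        intro h0
        have h1 := Polynomial.natDegree_eq_zero_iff_degree_le_zero.2 h0.le
        omega)
      obtain ⟨θ, e, he, hθ, h0⟩ := hfin a
      have hr : r ≠ 0 := by
        intro hr
        rw [hr, map_zero] at h
        exact (mul_ne_zero hT0 (hinj s hs)) h
      have h1 := congrArg (fun z => (θ z).order) h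
      simp only [map_mul] at h1
      rw [HahnSeries.order_mul ((map_ne_zero θ).2 hT0) ((map_ne_zero θ).2 (hinj s hs)),
        map_aeval, map_aeval, hθ, order_aeval s hs a e he, order_aeval r hr a e he] at h1
      have h2 : 1 ≤ s.rootMultiplicity a := (Polynomial.rootMultiplicity_pos hs).2 ha
      have h3 : 1 ≤ r.rootMultiplicity a := by
        by_contra h3
        have h4 : r.rootMultiplicity a = 0 := by omega
        rw [h4, Nat.cast_zero, mul_zero] at h1
        have h5 : (0 : ℤ) < (e : ℤ) * s.rootMultiplicity a := by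
          have : (0 : ℤ) < e := by exact_mod_cast he
          have : (0 : ℤ) < s.rootMultiplicity a := by exact_mod_cast h2
          positivity
        omega
      obtain ⟨s', rfl⟩ := Polynomial.dvd_iff_isRoot.2 ha
      obtain ⟨r', rfl⟩ := Polynomial.dvd_iff_isRoot.2 ((Polynomial.rootMultiplicity_pos hr).1 h3)
      have hs' : s' ≠ 0 := right_ne_zero_of_mul hs
      refine ih r' s' hs' ?_ ?_
      · rw [Polynomial.natDegree_mul (Polynomial.X_sub_C_ne_zero a) hs',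
          Polynomial.natDegree_X_sub_C] at hn
        omega
      · rw [map_mul, map_mul, mul_left_comm] at h
        exact mul_left_cancel₀ (hinj _ (Polynomial.X_sub_C_ne_zero a)) h
  obtain ⟨r, s, hrs⟩ := (IntermediateField.mem_adjoin_simple_iff ℂ T).1 hT
  obtain ⟨P, hP⟩ : ∃ P : Polynomial ℂ, T = Polynomial.aeval G.p P := by
    by_cases hs : s = 0
    · refine ⟨0, ?_⟩
      rw [hrs, hs]
      simp
    · refine key _ r s hs rfl ?_
      rw [hrs, div_mul_cancel₀ _ (hinj s hs)]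
  refine ⟨P, ?_, hP⟩
  by_cases hP0 : P = 0
  · rw [hP0, Polynomial.natDegree_zero]
    exact Nat.zero_le _
  obtain ⟨θ, e, he, hθ, h0⟩ := hinf
  rw [hP, map_aeval, hθ, order_aeval_inf P hP0 e he] at h0
  have h1 : (e : ℤ) * P.natDegree ≤ (e : ℤ) * D := by omega
  have h2 : e * P.natDegree ≤ e * D := by exact_mod_cast h1
  exact Nat.le_of_mul_le_mul_left h2 (by omega)

/-- the trace to `ℂ(p)` -/
def tr : G.K →ₗ[ℂ] G.K :=
  have := G.fin
  ((IntermediateField.val ℂ⟮G.p⟯).toLinearMap) ∘ₗ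
    ((Algebra.trace ℂ⟮G.p⟯ G.K).restrictScalars ℂ)

theorem tr_apply (x : G.K) : G.tr x = ((Algebra.trace ℂ⟮G.p⟯ G.K x : ℂ⟮G.p⟯) : G.K) := rfl

theorem tr_mem (x : G.K) : G.tr x ∈ ℂ⟮G.p⟯ := (Algebra.trace ℂ⟮G.p⟯ G.K x).2

theorem aeval_mem_adjoin (q : Polynomial ℂ) : Polynomial.aeval G.p q ∈ ℂ⟮G.p⟯ :=
  (IntermediateField.mem_adjoin_simple_iff ℂ _).2 ⟨q, 1, by rw [map_one, div_one]⟩

theorem tr_mul (c : G.K) (hc : c ∈ ℂ⟮G.p⟯) (x : G.K) : G.tr (c * x) = c * G.tr x := by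
  have h1 : c * x = (⟨c, hc⟩ : ℂ⟮G.p⟯) • x := rfl
  rw [tr_apply, tr_apply, h1, map_smul]
  rfl

theorem tr_sum [Fintype (G.K ≃ₐ[ℂ⟮G.p⟯] G.K)] (x : G.K) :
    G.tr x = ∑ γ : G.K ≃ₐ[ℂ⟮G.p⟯] G.K, γ x := by
  have := G.fin
  have := G.gal
  rw [tr_apply]
  have h := trace_eq_sum_automorphisms (K := ℂ⟮G.p⟯) x
  refine Eq.trans h ?_
  rw [Subsingleton.elim (AlgEquiv.fintype ℂ⟮G.p⟯ G.K) ‹Fintype (G.K ≃ₐ[ℂ⟮G.p⟯] G.K)›]

/-- a conjugate of an expansion -/
def cj (θ : G.K →ₐ[ℂ] LS) (γ : G.K ≃ₐ[ℂ⟮G.p⟯] G.K) : G.K →ₐ[ℂ] LS :=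
  θ.comp ((γ : G.K →ₐ[ℂ⟮G.p⟯] G.K).restrictScalars ℂ)

theorem cj_apply (θ : G.K →ₐ[ℂ] LS) (γ : G.K ≃ₐ[ℂ⟮G.p⟯] G.K) (x : G.K) :
    G.cj θ γ x = θ (γ x) := rfl

theorem cj_p (θ : G.K →ₐ[ℂ] LS) (γ : G.K ≃ₐ[ℂ⟮G.p⟯] G.K) : G.cj θ γ G.p = θ G.p := by
  rw [cj_apply]
  congr 1
  exact γ.commutes (IntermediateField.AdjoinSimple.gen ℂ G.p)

/-- the order of a trace -/
theorem order_tr (θ : G.K →ₐ[ℂ] LS) (y : G.K) (c : ℕ)
    (h : ∀ γ : G.K ≃ₐ[ℂ⟮G.p⟯] G.K, -(c : ℤ) ≤ (θ (γ y)).order) : -(c : ℤ) ≤ (θ (G.tr y)).order := by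
  have := G.fin
  let _ : Fintype (G.K ≃ₐ[ℂ⟮G.p⟯] G.K) := Fintype.ofFinite _
  have hx : (single (c : ℤ) (1 : ℂ) : LS) ≠ 0 := HahnSeries.single_ne_zero one_ne_zero
  have h1 : single (c : ℤ) 1 * θ (G.tr y) ∈ O := by
    rw [G.tr_sum, map_sum, Finset.mul_sum]
    refine sum_mem fun γ _ => mem_O.2 ?_
    by_cases h0 : θ (γ y) = 0
    · rw [h0, mul_zero, HahnSeries.order_zero]
    · rw [HahnSeries.order_mul hx h0, HahnSeries.order_single one_ne_zero]
      have := h γ
      omega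
  by_cases h0 : θ (G.tr y) = 0
  · rw [h0, HahnSeries.order_zero]
    omega
  · have h2 := mem_O.1 h1
    rw [HahnSeries.order_mul hx h0, HahnSeries.order_single one_ne_zero] at h2
    omega

/-- the traces lie in a finite dimensional space -/
theorem tr_MM (hc : G.CuspEx) (N : ℕ) (hN : 0 < N) (f0 : G.Kˣ) (m : ℕ) (w : G.K) (hw : w ≠ 0) :
    ∃ W : Submodule ℂ G.K, FiniteDimensional ℂ W ∧ ∀ x ∈ G.MM N f0 m, G.tr (x * w) ∈ W := by
  obtain ⟨q1, D1, hq1, a1, b1⟩ := G.lowerAt ((f0⁻¹ : G.Kˣ) : G.K)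
  obtain ⟨q2, D2, hq2, a2, b2⟩ := G.lowerAt w
  obtain ⟨h, hh⟩ : ∃ h : Polynomial ℂ,
    h = q1 * q2 * ∏ s ∈ G.S, (Polynomial.X - Polynomial.C (s : ℂ)) ^ m := ⟨_, rfl⟩
  have hprod : (∏ s ∈ G.S, (Polynomial.X - Polynomial.C (s : ℂ)) ^ m) ≠ 0 :=
    Finset.prod_ne_zero_iff.2 fun s _ => pow_ne_zero _ (Polynomial.X_sub_C_ne_zero _)
  have hh0 : h ≠ 0 := by
    rw [hh]
    exact mul_ne_zero (mul_ne_zero hq1 hq2) hprod
  obtain ⟨-, D3, -, -, b3⟩ := G.lowerAt (Polynomial.aeval G.p h)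
  have hhp : Polynomial.aeval G.p h ≠ 0 := fun h' => hh0 (transcendental_iff.1 G.trans_p h h')
  obtain ⟨D, hD⟩ : ∃ D : ℕ, D = D1 + D2 + D3 + m := ⟨_, rfl⟩
  let W : Submodule ℂ G.K := Submodule.span ℂ
    (Set.range fun i : Fin (D + 1) => (Polynomial.aeval G.p h)⁻¹ * G.p ^ (i : ℕ))
  refine ⟨W, FiniteDimensional.span_of_finite ℂ (Set.finite_range _), fun x hx => ?_⟩
  rcases hx with hx | ⟨hx1, hx2⟩
  · rw [hx, zero_mul, map_zero]
    exact zero_mem _
  by_cases hx0 : x = 0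
  · rw [hx0, zero_mul, map_zero]
    exact zero_mem _
  have hf : ∀ θ : G.K →ₐ[ℂ] LS, (θ (f0 : G.K)).order = -(θ ((f0⁻¹ : G.Kˣ) : G.K)).order := by
    intro θ
    have e1 : θ (f0 : G.K) ≠ 0 := (map_ne_zero _).2 f0.ne_zero
    have e2 : θ ((f0⁻¹ : G.Kˣ) : G.K) ≠ 0 := (map_ne_zero _).2 (f0⁻¹).ne_zero
    have e3 : (θ (f0 : G.K)).order + (θ ((f0⁻¹ : G.Kˣ) : G.K)).order = 0 := by
      rw [← HahnSeries.order_mul e1 e2, ← map_mul, ← Units.val_mul, mul_inv_cancel]
      simp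
    omega
  have hN1 : (1 : ℤ) ≤ N := by exact_mod_cast hN
  have hmul : ∀ θ : G.K →ₐ[ℂ] LS, (θ (Polynomial.aeval G.p h * (x * w))).order =
      (θ (Polynomial.aeval G.p h)).order + ((θ x).order + (θ w).order) := by
    intro θ
    rw [map_mul, map_mul, HahnSeries.order_mul ((map_ne_zero _).2 hhp)
      (mul_ne_zero ((map_ne_zero _).2 hx0) ((map_ne_zero _).2 hw)),
      HahnSeries.order_mul ((map_ne_zero _).2 hx0) ((map_ne_zero _).2 hw)]
  -- multiplicity of `h`
  have hmult : ∀ a : ℂ, q1.rootMultiplicity a + q2.rootMultiplicity a ≤ h.rootMultiplicity a := by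
    intro a
    rw [hh, Polynomial.rootMultiplicity_mul (hh ▸ hh0),
      Polynomial.rootMultiplicity_mul (mul_ne_zero hq1 hq2)]
    omega
  have hmultS : ∀ s ∈ G.S, q1.rootMultiplicity (s : ℂ) + q2.rootMultiplicity (s : ℂ) + m ≤
      h.rootMultiplicity (s : ℂ) := by
    intro s hs
    rw [hh, Polynomial.rootMultiplicity_mul (hh ▸ hh0),
      Polynomial.rootMultiplicity_mul (mul_ne_zero hq1 hq2)]
    have : m ≤ (∏ s ∈ G.S, (Polynomial.X - Polynomial.C (s : ℂ)) ^ m).rootMultiplicity (s : ℂ) :=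
      (Polynomial.le_rootMultiplicity_iff hprod).2
        (Finset.dvd_prod_of_mem (fun s : ℚ => (Polynomial.X - Polynomial.C (s : ℂ)) ^ m) hs)
    omega
  -- affine points
  have haff : ∀ a, G.Aff a → ∀ θ ∈ G.Pt a, 0 ≤ (θ (Polynomial.aeval G.p h * (x * w))).order := by
    intro a ha θ hθ
    have hθ' : θ G.p = C a + single ((1 : ℕ) : ℤ) 1 := by
      rw [Nat.cast_one]
      exact hθ
    have h1 := a1 a 1 θ le_rfl hθ'
    have h2 := a2 a 1 θ le_rfl hθ'
    have h3 := hx1 a ha θ hθ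
    rw [hf] at h3
    have h4 : -((q1.rootMultiplicity a : ℕ) : ℤ) ≤ (θ x).order := by
      by_contra hlt
      push Not at hlt
      have h5 : (N : ℤ) * (θ x).order ≤ (θ x).order := by
        have : (θ x).order ≤ 0 := by
          have : (0 : ℤ) ≤ (q1.rootMultiplicity a : ℕ) := by positivity
          omega
        nlinarith
      rw [Nat.cast_one, one_mul] at h1
      omega
    rw [hmul, map_aeval, hθ', order_aeval h hh0 a 1 le_rfl]
    have h6 := hmult a
    rw [Nat.cast_one, one_mul] at h2 ⊢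
    have h7 : ((q1.rootMultiplicity a : ℕ) : ℤ) + (q2.rootMultiplicity a : ℕ) ≤
        (h.rootMultiplicity a : ℕ) := by exact_mod_cast h6
    omega
  -- finite cusps
  have hcus : ∀ s ∈ G.S, ∀ (e : ℕ) (θ : G.K →ₐ[ℂ] LS), 1 ≤ e →
      θ G.p = C (s : ℂ) + single (e : ℤ) 1 →
      0 ≤ (θ (Polynomial.aeval G.p h * (x * w))).order := by
    intro s hs e θ he hθ
    have h1 := a1 s e θ he hθ
    have h2 := a2 s e θ he hθ
    have h3 := hx2 θ e ⟨he, Or.inl ⟨s, hs, hθ⟩⟩
    rw [hf] at h3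
    have he0 : (0 : ℤ) ≤ e := by positivity
    have h4 : -((e : ℤ) * (q1.rootMultiplicity (s : ℂ) + m : ℕ)) ≤ (θ x).order := by
      by_contra hlt
      push Not at hlt
      have h0 : (0 : ℤ) ≤ (e : ℤ) * (q1.rootMultiplicity (s : ℂ) + m : ℕ) := by positivity
      have h5 : (N : ℤ) * (θ x).order ≤ (θ x).order := by
        have : (θ x).order ≤ 0 := by omega
        nlinarith
      push_cast at hlt
      nlinarith
    rw [hmul, map_aeval, hθ, order_aeval h hh0 s e he]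
    have h6 : ((q1.rootMultiplicity (s : ℂ) + q2.rootMultiplicity (s : ℂ) + m : ℕ) : ℤ) ≤
        (h.rootMultiplicity (s : ℂ) : ℕ) := by exact_mod_cast hmultS s hs
    have h7 := mul_le_mul_of_nonneg_left h6 he0
    push_cast at h4 h7
    nlinarith
  -- infinity
  have hinf : ∀ (e : ℕ) (θ : G.K →ₐ[ℂ] LS), 1 ≤ e → θ G.p = single (-(e : ℤ)) 1 →
      -((e * D : ℕ) : ℤ) ≤ (θ (Polynomial.aeval G.p h * (x * w))).order := by
    intro e θ he hθ
    have h1 := b1 e θ he hθ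
    have h2 := b2 e θ he hθ
    have h8 := b3 e θ he hθ
    have h3 := hx2 θ e ⟨he, Or.inr hθ⟩
    rw [hf] at h3
    have h4 : -((e : ℤ) * (D1 + m : ℕ)) ≤ (θ x).order := by
      by_contra hlt
      push Not at hlt
      have h0 : (0 : ℤ) ≤ (e : ℤ) * (D1 + m : ℕ) := by positivity
      have h5 : (N : ℤ) * (θ x).order ≤ (θ x).order := by
        have : (θ x).order ≤ 0 := by omega
        nlinarith
      push_cast at hlt
      nlinarith
    rw [hmul, hD]
    push_cast at h4 ⊢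
    nlinarith
  -- the trace
  have htr : G.tr (Polynomial.aeval G.p h * (x * w)) =
      Polynomial.aeval G.p h * G.tr (x * w) := G.tr_mul _ (G.aeval_mem_adjoin h) _
  obtain ⟨P, hP1, hP2⟩ := G.poly_of_orders (G.tr (Polynomial.aeval G.p h * (x * w)))
    (G.tr_mem _) (fun a => by
      by_cases ha : G.Aff a
      · obtain ⟨θ, hθ⟩ := G.pt a ha
        refine ⟨θ, 1, le_rfl, by rw [Nat.cast_one]; exact hθ, ?_⟩
        have := G.order_tr θ (Polynomial.aeval G.p h * (x * w)) 0 (fun γ => by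
          rw [Nat.cast_zero, neg_zero]
          have := haff a ha (G.cj θ γ) (by
            change G.cj θ γ G.p = _
            rw [G.cj_p]
            exact hθ)
          exact this)
        simpa using this
      · unfold Geo.Aff at ha
        push Not at ha
        obtain ⟨s, hs, rfl⟩ := ha
        obtain ⟨θ, e, he, hθ⟩ := hc.1 s hs
        refine ⟨θ, e, he, hθ, ?_⟩
        have := G.order_tr θ (Polynomial.aeval G.p h * (x * w)) 0 (fun γ => by
          rw [Nat.cast_zero, neg_zero]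
          exact hcus s hs e (G.cj θ γ) he (by rw [G.cj_p]; exact hθ))
        simpa using this) D (by
      obtain ⟨θ, e, he, hθ⟩ := hc.2
      refine ⟨θ, e, he, hθ, ?_⟩
      have := G.order_tr θ (Polynomial.aeval G.p h * (x * w)) (e * D) (fun γ =>
        hinf e (G.cj θ γ) he (by rw [G.cj_p]; exact hθ))
      rwa [Nat.cast_mul] at this)
  rw [htr] at hP2
  have h9 : G.tr (x * w) = (Polynomial.aeval G.p h)⁻¹ * Polynomial.aeval G.p P := by
    rw [← hP2, inv_mul_cancel_left₀ hhp]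
  rw [h9, Polynomial.aeval_eq_sum_range' (Nat.lt_succ_of_le hP1), Finset.mul_sum]
  refine sum_mem fun i hi => ?_
  rw [mul_smul_comm]
  exact Submodule.smul_mem _ _ (Submodule.subset_span ⟨⟨i, Finset.mem_range.1 hi⟩, rfl⟩)

/-- **[FD]** -/
theorem finite_MM (hc : G.CuspEx) (N : ℕ) (hN : 0 < N) (f0 : G.Kˣ) (m : ℕ) :
    FiniteDimensional ℂ (G.MM N f0 m) := by
  have := G.fin
  have := G.gal
  let b := Module.finBasis ℂ⟮G.p⟯ G.K
  choose W hW hWx using fun j => G.tr_MM hc N hN f0 m (b j) (b.ne_zero j)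
  let Φ : G.MM N f0 m →ₗ[ℂ] (∀ j, W j) := LinearMap.pi fun j =>
    LinearMap.codRestrict (W j) ((G.tr ∘ₗ LinearMap.mulRight ℂ (b j)) ∘ₗ (G.MM N f0 m).subtype)
      fun x => hWx j x.1 x.2
  have hΦ : Function.Injective Φ := by
    rw [← LinearMap.ker_eq_bot, LinearMap.ker_eq_bot']
    intro x hx
    apply Subtype.ext
    have h1 : ∀ j, Algebra.trace ℂ⟮G.p⟯ G.K ((x : G.K) * b j) = 0 := by
      intro j
      have h2 := congrArg (fun v => ((v j : W j) : G.K)) hx
      change G.tr ((x : G.K) * b j) = 0 at h2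
      rw [tr_apply] at h2
      exact Subtype.ext h2
    have h3 : ∀ y : G.K, Algebra.traceForm ℂ⟮G.p⟯ G.K (x : G.K) y = 0 := by
      intro y
      rw [← b.sum_repr y, map_sum]
      refine Finset.sum_eq_zero fun j _ => ?_
      rw [map_smul, Algebra.traceForm_apply, h1 j, smul_zero]
    exact (traceForm_nondegenerate ℂ⟮G.p⟯ G.K).1 _ h3
  exact Module.Finite.of_injective Φ hΦ

end Geo

end Vale.Agent.P022.H542.L3

end
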